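import Vale.Agent.P181.TL.Defs
import Vale.Agent.P181.R2.H959.FDefs
import Vale.Agent.P181.R2.H959.WDefs

set_option autoImplicit false

/-!
# P181, NR: few rows, `b ≥ (1 + δ) a`, third row at least `a ^ (1 + κ)`: the literals

`b` points are cut in `B` blocks of `n` points (`n` constant) and a rest. In a block the labels of
`n` points cost a constant, the other boxes are free; the product of the blocks loses only
`(n B)! / n! ^ B`.
-/

open MvPolynomial

namespace Vale.Agent.P181.NR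

open Vale.Agent.P181.T4 (HW)
open Vale.Agent.P181.H280 (plethMult)
open Vale.Agent.P181.H463 (gt)
open Vale.Agent.P181.FR (gw Pos)
open Vale.Agent.P181.SZ Vale.Agent.P181.TL

/-- `P` is a highest weight polynomial of weight `q ω_j`, of degree `l` in each of the `n` points,
and on the orbit of the configuration `x` it is nonzero only at `x`. -/
def Lab (m j n q l : ℕ) : Prop :=
  ∃ (P : MvPolynomial (Fin m × Fin n) ℂ) (x : Fin m × Fin n → ℂ),
    P ∈ KK m (Fin n) (fun _ => l) (fun i => if (i : ℕ) < j then q else 0) ∧ eval x P ≠ 0 ∧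
    ∀ e : Equiv.Perm (Fin n), e ≠ 1 → eval (fun p : Fin m × Fin n => x (p.1, e p.2)) P = 0

/-- **(N1)** labels exist. -/
def LabS : Prop := ∀ m j n : ℕ, 3 ≤ j → j ≤ m → j + 3 ≤ n → ∃ q l : ℕ, 0 < q ∧ Lab m j n q l

/-- **(N2)** the orbit inequality for one block. -/
def BlkS : Prop := ∀ (m j n q l a : ℕ) (eta : Fin m → ℕ), Lab m j n q l → l ≤ a →
  Module.finrank ℂ (KK m (Fin n) (fun _ => a - l) eta) ≤
    n.factorial * plethMult n a m (fun i => eta i + if (i : ℕ) < j then q else 0)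

/-- **(N3)** many tableaux with `n` letters. -/
def GtS : Prop := ∀ (m n : ℕ) (eta : Fin m → ℕ), Antitone eta → 2 * m + 1 ≤ n →
  ∏ i, max 1 (eta i / (n - 2 * m)) ^ (n - 2 * m - 1) ≤ gt m n eta

/-- **(N4)** products of highest weight vectors. -/
def ZedS : Prop := ∀ (p q a m : ℕ) (al be : Fin m → ℕ),
  plethMult p a m al * plethMult q a m be ≤
    (p + q).choose p * plethMult (p + q) a m (fun i => al i + be i)

/-- **(N4b)** equal blocks. -/
def PowS : Prop := ∀ (n B a m : ℕ) (al : Fin m → ℕ),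
  (n.factorial * plethMult n a m al) ^ B ≤
    (n * B).factorial * plethMult (n * B) a m (fun i => B * al i)

/-- **(N5)** the choice of the block weight. -/
def SplS : Prop := ∀ (m j n a b B X q : ℕ) (g : ℕ → ℕ), 1 ≤ j → j ≤ m → m.factorial ∣ n → 0 < n →
  0 < B → ∑ i ∈ Finset.Icc 1 m, i * g i = a * b → b ≤ 2 * n * B →
  n * B * a + m * X + m * B * m.factorial ≤ a * b → X + 2 * B * (m.factorial + q) ≤ g j →
  ∃ c : ℕ → ℕ, ∑ i ∈ Finset.Icc 1 m, i * c i = n * a ∧ (∀ i, B * c i ≤ g i) ∧ q ≤ c j ∧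
    B * c j + X ≤ g j ∧
    ∀ i ∈ Finset.Icc 1 m, g i ≤ 2 * B * c i + 2 * B * m.factorial + if i = j then X else 0

/-- **(N6)** the upper bound. -/
def UpR : Prop := ∀ (k a b : ℕ) (lam : Fin (k + 2) → ℕ), Antitone lam →
  plethMult a b (k + 2) lam ≤
    (a + b).choose a * ∏ i : Fin k, (a + lam i.succ.succ).choose (lam i.succ.succ)

/-- **(N7)** lower bound for the side with `b` points. -/
def LowR : Prop := ∀ m j n : ℕ, 3 ≤ j → j ≤ m → 4 * m + 4 ≤ n → m.factorial ∣ n →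
  ∃ K : ℕ, 0 < K ∧ ∀ (a b B : ℕ) (g : ℕ → ℕ), K ≤ a → 0 < B → b ≤ 2 * n * B →
    n * B * a + K * a + K * B ≤ a * b → K * (a + B) ≤ g j →
    ∑ i ∈ Finset.Icc 1 m, i * g i = a * b →
    (∏ i : Fin m, max 1 (gw m g i / (K * B)) ^ (n - 2 * m - 1)) ^ B ≤
      (n * B).factorial * (n + n * a).choose n ^ B * plethMult b a m (gw m g)

/-- **(N8)** the numbers: everything except `b ≥ C a (1 + log a) ^ c` and `w ≤ a ^ (2 - ε)`. -/
def CoreR : Prop := ∀ (k : ℕ) (δ κ : ℝ), 0 < δ → 0 < κ → ∃ ε A : ℝ, 0 < ε ∧ 0 < A ∧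
  ∀ (a b : ℕ) (lam : Fin (k + 3) → ℕ), Antitone lam → ∑ i, lam i = a * b → A ≤ a →
    (1 + δ) * a ≤ b → (b : ℝ) ≤ (a : ℝ) ^ (1 + ε) → (a : ℝ) ^ (2 - ε) ≤ lam 1 →
    (a : ℝ) ^ (1 + κ) ≤ lam 2 →
    plethMult a b (k + 3) lam ≤ plethMult b a (k + 3) lam

/-- **(N9)** the final form. -/
def FewDiag : Prop := ∀ (k : ℕ) (δ κ : ℝ), 0 < δ → 0 < κ → ∃ C : ℝ, 0 < C ∧
  ∀ (a b : ℕ) (lam : Fin (k + 3) → ℕ), Antitone lam → ∑ i, lam i = a * b →
    (1 + δ) * a ≤ b → C * (a : ℝ) ^ (1 + κ) ≤ lam 2 →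
    plethMult a b (k + 3) lam ≤ plethMult b a (k + 3) lam

end Vale.Agent.P181.NR
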