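import Vale.Agent.P181.NR.Defs

set_option autoImplicit false

/-!
# P181, NR: blocks of about `log a` points: the literals

The constants of the line NR are polynomials in the size `n` of the blocks.
-/

open MvPolynomial

namespace Vale.Agent.P181.NR

open Vale.Agent.P181.H280 (plethMult)
open Vale.Agent.P181.FR (gw)

/-- **(P1)** labels, with a bound. -/
def LabP : Prop := ∀ m j : ℕ, 3 ≤ j → j ≤ m → ∃ D : ℕ, ∀ n : ℕ, j + 3 ≤ n →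
  ∃ q l : ℕ, 0 < q ∧ q ≤ n ^ D ∧ l ≤ n ^ D ∧ Lab m j n q l

/-- **(P2)** the lower bound. -/
def LowP : Prop := ∀ m j : ℕ, 3 ≤ j → j ≤ m → ∃ D : ℕ, ∀ n : ℕ, 4 * m + 4 ≤ n →
  m.factorial ∣ n → ∀ (a b B : ℕ) (g : ℕ → ℕ), n ^ D ≤ a → 0 < B → b ≤ 2 * n * B →
    n * B * a + n ^ D * a + n ^ D * B ≤ a * b → n ^ D * (a + B) ≤ g j →
    ∑ i ∈ Finset.Icc 1 m, i * g i = a * b →
    (∏ i : Fin m, max 1 (gw m g i / (n ^ D * B)) ^ (n - 2 * m - 1)) ^ B ≤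
      (n * B).factorial * (n + n * a).choose n ^ B * plethMult b a m (gw m g)

/-- **(P3)** the numbers. -/
def CoreP : Prop := ∀ (k c₀ : ℕ) (C₀ : ℝ), 1 ≤ C₀ → ∃ C : ℝ, 0 < C ∧
  ∀ (a b : ℕ) (lam : Fin (k + 3) → ℕ), Antitone lam → ∑ i, lam i = a * b → C ≤ a → a ≤ b →
    (b : ℝ) ≤ C₀ * a * (1 + Real.log a) ^ c₀ →
    (a : ℝ) ^ 2 ≤ C₀ * (1 + Real.log a) ^ c₀ * lam 1 →
    C * b * Real.log (2 + Real.log a) ≤ ((b : ℝ) - a) * Real.log ((lam 2 : ℝ) / a) →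
    plethMult a b (k + 3) lam ≤ plethMult b a (k + 3) lam

/-- **(P4)** the final form: few rows, near the diagonal. -/
def FewNear : Prop := ∀ k : ℕ, ∃ C : ℝ, 0 < C ∧
  ∀ (a b : ℕ) (lam : Fin (k + 3) → ℕ), Antitone lam → ∑ i, lam i = a * b → C ≤ a → a ≤ b →
    C * b * Real.log (2 + Real.log a) ≤ ((b : ℝ) - a) * Real.log ((lam 2 : ℝ) / a) →
    plethMult a b (k + 3) lam ≤ plethMult b a (k + 3) lam

end Vale.Agent.P181.NR
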